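import Vale.Agent.P141.H508.OwnC

/-!
# P141, line (A): the slot `C` on a set with thin columns

`D` a set of pairs `(x1, x3)` whose columns over the cells under alive squares have relative
measure at most `q`.  `famK_D` : the slot `C = fC w (kF Λ a K F)`, `w = 0` off `D`, as a family
`FamK` with own energies summed over `x0` at most `4 Λ (cP + 2) e² q A2 8 ^ K`.
`ownK_D` : the lemma at one `x0`, own energy at most `e q` times the square energy.
-/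

namespace Vale.Agent.P141.H165

open Finset Matrix
open Vale.Agent.P141.PL (Pt iv ix mem_iv ix_ix cx)
open Vale.Agent.P141.PL.H315 (A2)
open Vale.Agent.P141.H736 (Path sqb sqQ)
open Vale.Agent.P141.H958 (Aff s4 pwr mem_Aff sum_Aff PackQ)
open Vale.Agent.P141.H48 (own4 pth Qth sst BSl Mo4 A4 ES)
open Vale.Agent.P141.H677 (kF fC)
open Vale.Agent.P141.H205 (FamK ownK pwrK GQ tr_GQ_sq)

noncomputable section

open scoped Classical

/-- Exchange of the two variables in the fourth power sum. -/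
theorem flip4 (X Z : Finset ℤ) (f : ℤ → ℤ → ℝ) :
    ∑ z ∈ Z, ∑ z' ∈ Z, (∑ x ∈ X, f x z * f x z') ^ 2 =
      ∑ x ∈ X, ∑ x' ∈ X, (∑ z ∈ Z, f x z * f x' z) ^ 2 := by
  have e1 : ∀ z z' : ℤ, (∑ x ∈ X, f x z * f x z') ^ 2 =
      ∑ x ∈ X, ∑ x' ∈ X, (f x z * f x z') * (f x' z * f x' z') := by
    intro z z'
    rw [sq, sum_mul_sum]
  have e2 : ∀ x x' : ℤ, (∑ z ∈ Z, f x z * f x' z) ^ 2 =
      ∑ z ∈ Z, ∑ z' ∈ Z, (f x z * f x z') * (f x' z * f x' z') := by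
    intro x x'
    rw [sq, sum_mul_sum]
    exact sum_congr rfl fun z _ => sum_congr rfl fun z' _ => by ring
  simp only [e1, e2]
  calc ∑ z ∈ Z, ∑ z' ∈ Z, ∑ x ∈ X, ∑ x' ∈ X, (f x z * f x z') * (f x' z * f x' z')
      = ∑ z ∈ Z, ∑ x ∈ X, ∑ z' ∈ Z, ∑ x' ∈ X, (f x z * f x z') * (f x' z * f x' z') :=
        sum_congr rfl fun z _ => sum_comm
    _ = ∑ x ∈ X, ∑ z ∈ Z, ∑ z' ∈ Z, ∑ x' ∈ X, (f x z * f x z') * (f x' z * f x' z') := sum_comm
    _ = ∑ x ∈ X, ∑ z ∈ Z, ∑ x' ∈ X, ∑ z' ∈ Z, (f x z * f x z') * (f x' z * f x' z') :=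
        sum_congr rfl fun x _ => sum_congr rfl fun z _ => sum_comm
    _ = ∑ x ∈ X, ∑ x' ∈ X, ∑ z ∈ Z, ∑ z' ∈ Z, (f x z * f x z') * (f x' z * f x' z') :=
        sum_congr rfl fun x _ => sum_comm

/-- **The square lemma**: rows of `φ` of energy at most `E`, columns of `D` at most `q`. -/
theorem sq_le {X Z : Finset ℤ} {f φ : ℤ → ℤ → ℝ} {D : ℤ → ℤ → Prop} {E q : ℝ}
    (hE : 0 ≤ E) (hf0 : ∀ x ∈ X, ∀ z ∈ Z, 0 ≤ f x z) (hfφ : ∀ x ∈ X, ∀ z ∈ Z, f x z ≤ |φ x z|)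
    (hfD : ∀ x ∈ X, ∀ z ∈ Z, ¬ D x z → f x z = 0)
    (hφ : ∀ x ∈ X, ∑ z ∈ Z, φ x z ^ 2 ≤ E)
    (hD : ∀ z ∈ Z, ((X.filter fun x => D x z).card : ℝ) ≤ q) :
    ∑ z ∈ Z, ∑ z' ∈ Z, (∑ x ∈ X, f x z * f x z') ^ 2 ≤ E * q * ∑ x ∈ X, ∑ z ∈ Z, f x z ^ 2 := by
  rw [flip4]
  have h1 : ∀ x ∈ X, ∀ x' ∈ X, (∑ z ∈ Z, f x z * f x' z) ^ 2 ≤
      E * ∑ z ∈ Z, (if D x z then f x' z ^ 2 else 0) := by
    intro x hx x' hx'
    have h2 : (∑ z ∈ Z, f x z * f x' z) ^ 2 ≤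
        (∑ z ∈ Z, |φ x z| * (if D x z then f x' z else 0)) ^ 2 := by
      refine pow_le_pow_left₀ (sum_nonneg fun z hz =>
        mul_nonneg (hf0 x hx z hz) (hf0 x' hx' z hz)) (sum_le_sum fun z hz => ?_) 2
      split_ifs with hd
      · exact mul_le_mul_of_nonneg_right (hfφ x hx z hz) (hf0 x' hx' z hz)
      · rw [hfD x hx z hz hd]
        simp
    refine h2.trans ((sum_mul_sq_le_sq_mul_sq Z _ _).trans ?_)
    have h3 : ∑ z ∈ Z, |φ x z| ^ 2 ≤ E := by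
      simp only [sq_abs]
      exact hφ x hx
    have h4 : ∀ z, (if D x z then f x' z else 0) ^ 2 = if D x z then f x' z ^ 2 else 0 := by
      intro z
      split_ifs <;> simp
    simp only [h4]
    refine mul_le_mul_of_nonneg_right h3 (sum_nonneg fun z _ => ?_)
    split_ifs
    · positivity
    · exact le_rfl
  calc ∑ x ∈ X, ∑ x' ∈ X, (∑ z ∈ Z, f x z * f x' z) ^ 2
      ≤ ∑ x ∈ X, ∑ x' ∈ X, E * ∑ z ∈ Z, (if D x z then f x' z ^ 2 else 0) :=
        sum_le_sum fun x hx => sum_le_sum fun x' hx' => h1 x hx x' hx'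
    _ = E * ∑ x' ∈ X, ∑ z ∈ Z, ∑ x ∈ X, (if D x z then f x' z ^ 2 else 0) := by
        simp only [← mul_sum]
        congr 1
        rw [sum_comm]
        exact sum_congr rfl fun x' _ => sum_comm
    _ ≤ E * ∑ x' ∈ X, ∑ z ∈ Z, q * f x' z ^ 2 := by
        refine mul_le_mul_of_nonneg_left (sum_le_sum fun x' _ => sum_le_sum fun z hz => ?_) hE
        rw [← sum_filter, sum_const, nsmul_eq_mul]
        exact mul_le_mul_of_nonneg_right (hD z hz) (sq_nonneg _)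
    _ = E * q * ∑ x ∈ X, ∑ z ∈ Z, f x z ^ 2 := by
        simp only [← mul_sum]
        ring

variable {κ : Type*} [Fintype κ]
variable {Λ : ℝ} {a : ℤ × ℤ → ℝ} {K : ℕ} {F : ℕ → Pt → ℝ} {v : ℤ → ℤ → κ → ℝ} {R S : ℤ}
variable {D : ℤ → ℤ → Prop}

/-- **Columns of `D`** under the squares which are alive at the next scale. -/
def Cols (Λ : ℝ) (a : ℤ × ℤ → ℝ) (K : ℕ) (R S : ℤ) (D : ℤ → ℤ → Prop) (q : ℝ) : Prop :=
  ∀ k < K, ∀ n ∈ iv (K - k) R, ∀ m ∈ iv (K - k) S,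
    ¬ sst Λ a K (k + 1) (2 ^ k * n) (2 ^ k * m) → ∀ z ∈ iv k m,
      (((iv k n).filter fun x => D x z).card : ℝ) ≤ q * 2 ^ k

/-- **Own energy at one `x0`**: at most `e q` times the square energy. -/
theorem ownK_D {n : ℕ} {e cP q : ℝ} {Q' : ℕ → Pt → Prop} (hq : 0 ≤ q) (he : 0 ≤ e)
    (hB : BSl n e cP F Q') (hK : K ≤ n)
    (ha : ∀ x ∈ iv K R, ∀ z ∈ iv K S, 0 ≤ a (x, z) ∧ a (x, z) ≤ 1 ∧
      v x z ⬝ᵥ v x z ≤ a (x, z) ^ 2)
    (hv : ∀ x ∈ iv K R, ∀ z ∈ iv K S, ¬ D x z → v x z = 0) (hc : Cols Λ a K R S D q)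
    (x0 : ℤ) (Q : ℕ → ℤ → ℤ → Prop) :
    ownK K R S Q (fun k x z => fC v (kF Λ a K F) x0 k z x) ≤
      e * q * pwr K R S Q (pth Λ a K (fun k q => |F k q|) x0) := by
  have h1 : pwr K R S Q (pth Λ a K (fun k q => |F k q|) x0) = ∑ i ∈ Aff K R S Q,
      ∑ z ∈ iv i.1 i.2.2, ∑ x ∈ iv i.1 i.2.1,
        pth Λ a K (fun k q => |F k q|) x0 (i.1 + 1) x z ^ 2 := by
    rw [sum_Aff]
    rfl
  rw [h1, mul_sum]
  unfold ownK
  refine sum_le_sum fun i hi => ?_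
  rw [mem_Aff] at hi
  obtain ⟨hk, hn, hm, -⟩ := hi
  obtain ⟨k, n', m'⟩ := i
  simp only at hk hn hm ⊢
  rw [tr_GQ_sq]
  have ha' : ∀ x ∈ iv K R, ∀ z ∈ iv K S, 0 ≤ a (x, z) ∧ v x z ⬝ᵥ v x z ≤ a (x, z) ^ 2 :=
    fun x hx z hz => ⟨(ha x hx z hz).1, (ha x hx z hz).2.2⟩
  set p : ℤ → ℤ → ℝ := pth Λ a K (fun k q => |F k q|) x0 (k + 1) with hp
  set g : ℤ → ℤ → ℝ := fun x z => if D x z then p x z else 0 with hg
  have hp0 : ∀ x ∈ iv k n', ∀ z ∈ iv k m', 0 ≤ p x z := by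
    intro x hx z hz
    have hx1 := H508.root_mem hk.le hn hx
    have hz1 := H508.root_mem hk.le hm hz
    rw [hp]
    unfold pth
    by_cases h2 : k + 1 = 0 ∨ sst Λ a K (k + 1) x z
    · rw [if_pos h2]
    · rw [if_neg h2]
      exact mul_nonneg (ha x hx1 z hz1).1 (abs_nonneg _)
  have hg0 : ∀ x ∈ iv k n', ∀ z ∈ iv k m', 0 ≤ g x z := by
    intro x hx z hz
    rw [hg]
    simp only
    split_ifs
    · exact hp0 x hx z hz
    · exact le_rfl
  have hgp : ∀ x ∈ iv k n', ∀ z ∈ iv k m', g x z ^ 2 ≤ p x z ^ 2 := by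
    intro x hx z hz
    rw [hg]
    simp only
    split_ifs
    · exact le_rfl
    · rw [zero_pow two_ne_zero]
      exact sq_nonneg _
  -- the vectors against `g`
  have hdot : ∀ x ∈ iv k n', ∀ z ∈ iv k m', ∀ z' ∈ iv k m',
      |fC v (kF Λ a K F) x0 (k + 1) z x ⬝ᵥ fC v (kF Λ a K F) x0 (k + 1) z' x| ≤
        g x z * g x z' := by
    intro x hx z hz z' hz'
    have hx1 := H508.root_mem hk.le hn hx
    have hz1 := H508.root_mem hk.le hm hz
    have hz1' := H508.root_mem hk.le hm hz'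
    by_cases h2 : D x z
    · by_cases h3 : D x z'
      · have h4 := H508.vec_le (F := F) (Λ := Λ) ha' x0 (k + 1) hx1 hz1 hz1'
        rw [hg]
        simp only
        rw [if_pos h2, if_pos h3]
        exact h4
      · have h4 : fC v (kF Λ a K F) x0 (k + 1) z' x = 0 := by
          unfold fC
          rw [hv x hx1 z' hz1' h3, smul_zero]
        rw [h4, dotProduct_zero, abs_zero]
        exact mul_nonneg (hg0 x hx z hz) (hg0 x hx z' hz')
    · have h4 : fC v (kF Λ a K F) x0 (k + 1) z x = 0 := by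
        unfold fC
        rw [hv x hx1 z hz1 h2, smul_zero]
      rw [h4, zero_dotProduct, abs_zero]
      exact mul_nonneg (hg0 x hx z hz) (hg0 x hx z' hz')
  have hsum : ∑ y ∈ iv k m', ∑ y' ∈ iv k m', (∑ x ∈ iv k n',
      fC v (kF Λ a K F) x0 (k + 1) y x ⬝ᵥ fC v (kF Λ a K F) x0 (k + 1) y' x) ^ 2 ≤
      ∑ z ∈ iv k m', ∑ z' ∈ iv k m', (∑ x ∈ iv k n', g x z * g x z') ^ 2 := by
    refine sum_le_sum fun z hz => sum_le_sum fun z' hz' => ?_
    refine sq_le_sq' ?_ ?_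
    · rw [neg_le]
      exact (neg_le_abs _).trans ((abs_sum_le_sum_abs _ _).trans
        (sum_le_sum fun x hx => hdot x hx z hz z' hz'))
    · exact (le_abs_self _).trans ((abs_sum_le_sum_abs _ _).trans
        (sum_le_sum fun x hx => hdot x hx z hz z' hz'))
  have hmain : ∑ z ∈ iv k m', ∑ z' ∈ iv k m', (∑ x ∈ iv k n', g x z * g x z') ^ 2 ≤
      e * 2 ^ k * (q * 2 ^ k) * ∑ x ∈ iv k n', ∑ z ∈ iv k m', g x z ^ 2 := by
    by_cases hst : sst Λ a K (k + 1) (2 ^ k * n') (2 ^ k * m')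
    · have h0 : ∀ x ∈ iv k n', ∀ z ∈ iv k m', g x z = 0 := by
        intro x hx z hz
        have h5 : p x z = 0 := by
          rw [hp]
          unfold pth
          rw [if_pos]
          right
          exact (H769.sst_congr (H769.ix_of_le (Nat.le_succ k) (H769.corner k hx))
            (H769.ix_of_le (Nat.le_succ k) (H769.corner k hz))).2 hst
        rw [hg]
        simp only
        rw [h5]
        simp
      have h6 : ∑ z ∈ iv k m', ∑ z' ∈ iv k m', (∑ x ∈ iv k n', g x z * g x z') ^ 2 = 0 := by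
        refine sum_eq_zero fun z hz => sum_eq_zero fun z' hz' => ?_
        rw [sum_eq_zero fun x hx => by rw [h0 x hx z hz, zero_mul]]
        norm_num
      rw [h6]
      positivity
    · refine sq_le (D := D) (φ := fun x z => F (k + 1) (x0, x, z)) (by positivity)
        hg0 ?_ ?_ ?_ (hc k hk n' hn m' hm hst)
      · intro x hx z hz
        have hx1 := H508.root_mem hk.le hn hx
        have hz1 := H508.root_mem hk.le hm hz
        have h7 : p x z ≤ |F (k + 1) (x0, x, z)| := by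
          rw [hp]
          unfold pth
          by_cases h2 : k + 1 = 0 ∨ sst Λ a K (k + 1) x z
          · rw [if_pos h2]
            exact abs_nonneg _
          · rw [if_neg h2]
            have h8 := mul_le_mul_of_nonneg_right (ha x hx1 z hz1).2.1
              (abs_nonneg (F (k + 1) (x0, x, z)))
            rw [one_mul] at h8
            exact h8
        rw [hg]
        simp only
        split_ifs
        · exact h7
        · exact abs_nonneg _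
      · intro x hx z hz h8
        rw [hg]
        simp only
        rw [if_neg h8]
      · intro x _
        exact hB.l2 k (hk.trans_le hK) m' x0 x
  have hlast : e * 2 ^ k * (q * 2 ^ k) * ∑ x ∈ iv k n', ∑ z ∈ iv k m', g x z ^ 2 ≤
      e * 2 ^ k * (q * 2 ^ k) * ∑ x ∈ iv k n', ∑ z ∈ iv k m', p x z ^ 2 :=
    mul_le_mul_of_nonneg_left (sum_le_sum fun x hx => sum_le_sum fun z hz => hgp x hx z hz)
      (by positivity)
  have h9 : (4 : ℝ) ^ k * ((((2 : ℝ) ^ k * 2 ^ k) ^ 2)⁻¹ * (e * 2 ^ k * (q * 2 ^ k) *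
      ∑ x ∈ iv k n', ∑ z ∈ iv k m', p x z ^ 2)) =
      e * q * ∑ x ∈ iv k n', ∑ z ∈ iv k m', p x z ^ 2 := by
    have h10 : (2 : ℝ) ^ k ≠ 0 := by positivity
    have h11 : (4 : ℝ) ^ k = 2 ^ k * 2 ^ k := by rw [← mul_pow]; norm_num
    rw [h11]
    field_simp
  have h12 : ∑ z ∈ iv k m', ∑ x ∈ iv k n', p x z ^ 2 = ∑ x ∈ iv k n', ∑ z ∈ iv k m', p x z ^ 2 :=
    sum_comm
  rw [h12, ← h9]
  refine mul_le_mul_of_nonneg_left ?_ (by positivity)
  refine mul_le_mul_of_nonneg_left ?_ (by positivity)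
  exact hsum.trans (hmain.trans hlast)

/-- **The slot `C` on a set with thin columns, as a family.** -/
theorem famK_D {n : ℕ} {e cP q : ℝ} {Q : ℕ → Pt → Prop} (hΛ : 1 ≤ Λ) (he : 0 ≤ e) (hcP : 0 ≤ cP)
    (hq : 0 ≤ q) (h : BSl n e cP F Q) (hK : K ≤ n) {x1 x3 : ℤ}
    (ha : ∀ x ∈ iv K (ix K x1), ∀ z ∈ iv K (ix K x3), 0 ≤ a (x, z) ∧ a (x, z) ≤ 1 ∧
      v x z ⬝ᵥ v x z ≤ a (x, z) ^ 2)
    (hv : ∀ x ∈ iv K (ix K x1), ∀ z ∈ iv K (ix K x3), ¬ D x z → v x z = 0)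
    (hc : Cols Λ a K (ix K x1) (ix K x3) D q) (t : ℤ) :
    FamK K (ix K x1) (ix K x3) (iv K t) (fun x0 => Qth Λ a K Q x0)
      (fun x0 k x z => fC v (kF Λ a K F) x0 k z x) (cP + 2)
      (4 * Λ * (cP + 2) * e ^ 2 * q * A2 K a x1 x3 * 8 ^ K)
      (4 * Λ * (cP + 2) * e * A2 K a x1 x3 * 8 ^ K) := by
  have ha' : ∀ x ∈ iv K (ix K x1), ∀ z ∈ iv K (ix K x3),
      0 ≤ a (x, z) ∧ v x z ⬝ᵥ v x z ≤ a (x, z) ^ 2 :=
    fun x hx z hz => ⟨(ha x hx z hz).1, (ha x hx z hz).2.2⟩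
  have h0 := H508.famK_C (v := v) hΛ he hcP h hK ha' t
  have h1 := (H769.ownSt hΛ n e cP (e ^ 2) (fun k q => |F k q|) Q hcP he (sq_nonneg _)
    (H508.bsl_abs h) (H206.mo4_of_l he (H508.bsl_abs h)) K hK a x1 x3 t).2
  exact {
    path := h0.path
    zero := h0.zero
    pack := h0.pack
    own := by
      refine (sum_le_sum fun x0 _ => ownK_D hq he h hK ha hv hc x0 _).trans ?_
      rw [← mul_sum]
      refine (mul_le_mul_of_nonneg_left h1 (by positivity)).trans (le_of_eq ?_)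
      ring
    pow := h0.pow }

end

end Vale.Agent.P141.H165
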